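import Vale.Agent.P211.H210.CoreProof
import Vale.Agent.P211.H210.Close

open scoped Manifold ContDiff
open Bundle Vale.Agent.P211.St Vale.Agent.P211.Final

/-- A closed connected oriented four-manifold with `Ric = lam g`, `lam > 0` and nonnegative
sectional curvature is half conformally flat (for one of the two orientations) or locally
symmetric with the curvature tensor of the product of two round two-spheres of equal radius. -/
theorem Vale.Agent.Results.P211.HalfFlatOrProduct.result
    {E : Type} [NormedAddCommGroup E] [NormedSpace ℝ E] [FiniteDimensional ℝ E]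
    (hdim : Module.finrank ℝ E = 4)
    {M : Type} [TopologicalSpace M] [T2Space M] [ChartedSpace E M] [Mfd E M] [CompactSpace M]
    [ConnectedSpace M] [Metric E M]
    [IsContMDiffRiemannianBundle 𝓘(ℝ, E) ∞ E fun p : M => TangentSpace 𝓘(ℝ, E) p]
    (cov : Conn E M) (hcov : IsLeviCivita cov) (lam : ℝ) (hlam : 0 < lam)
    (hE : IsEinstein cov lam) (hK : SecNonneg cov)
    (om : (p : M) → TangentSpace 𝓘(ℝ, E) p [⋀^Fin 4]→ₗ[ℝ] ℝ) (hom : IsOrientation om) :
    HalfFlat cov lam om 1 ∨ HalfFlat cov lam om (-1) ∨ LocallyS2S2 cov lam :=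
  Vale.Agent.P211.H210.target_of_core Vale.Agent.P211.H210.core hdim cov hcov lam hlam hE hK om hom
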