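import Vale.Agent.P211.H555.Main
import Vale.Agent.P211.H555.Orient
import Vale.Agent.P211.H210.CoreProof

open scoped Manifold ContDiff
open Bundle Vale.Agent.P211.NN

/-- Closed Einstein four-manifolds `(M, g)` with nonnegative sectional curvature; `cov` is the
Levi-Civita connection. (1) If `Ric = lam g`, `lam > 0`, and `M` is oriented by `om`, then `W₊ = 0`,
or `W₋ = 0`, or `g` is locally `S² × S²` with two round factors of equal radius. (2) The last case is
impossible if `K > 0` at one point. (3) If `M` is simply connected, it has an orientation `om`.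
(4) If only `Ric = f g` with a function `f`, then `f` is a constant `lam ≥ 0`, and `g` is flat if
`lam = 0`. -/
theorem Vale.Agent.Results.P211.NonnegativeEinstein.result
    {E : Type} [NormedAddCommGroup E] [NormedSpace ℝ E] [FiniteDimensional ℝ E] [CompleteSpace E]
    (hdim : Module.finrank ℝ E = 4)
    {M : Type} [TopologicalSpace M] [T2Space M] [CompactSpace M] [ConnectedSpace M]
    [ChartedSpace E M] [IsManifold 𝓘(ℝ, E) ∞ M]
    [RiemannianBundle fun p : M => TangentSpace 𝓘(ℝ, E) p]
    [IsContMDiffRiemannianBundle 𝓘(ℝ, E) ∞ E fun p : M => TangentSpace 𝓘(ℝ, E) p]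
    (cov : CovariantDerivative 𝓘(ℝ, E) E (TangentSpace 𝓘(ℝ, E) : M → Type))
    (hs : cov.ContMDiffCovariantDerivative ∞) (ht : cov.torsion = 0)
    (hm : CovariantDerivative.IsMetricCompatible (V := (TangentSpace 𝓘(ℝ, E) : M → Type)) cov)
    (hK : SecNonneg cov) :
    (∀ (lam : ℝ) (om : (p : M) → TangentSpace 𝓘(ℝ, E) p [⋀^Fin 4]→ₗ[ℝ] ℝ), 0 < lam →
        RicciEq cov (fun _ => lam) → IsOrientation om →
      (WPlusZero cov lam om ∨ WPlusZero cov lam (-om) ∨ LocallyProduct cov lam) ∧
      ((∃ p : M, ∀ X Y : SmoothField E M, LinearIndependent ℝ ![X p, Y p] →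
          0 < Rm cov X Y Y X p) → WPlusZero cov lam om ∨ WPlusZero cov lam (-om))) ∧
    (SimplyConnectedSpace M →
      ∃ om : (p : M) → TangentSpace 𝓘(ℝ, E) p [⋀^Fin 4]→ₗ[ℝ] ℝ, IsOrientation om) ∧
    (∀ f : M → ℝ, RicciEq cov f → ∃ lam : ℝ, 0 ≤ lam ∧ (∀ p, f p = lam) ∧
      (lam = 0 → ∀ (p : M) (X Y Z W : SmoothField E M), Rm cov X Y Z W p = 0)) := by
  have hL := Vale.Agent.P211.H555.levi hs ht hm
  refine ⟨fun lam om hlam hR hom => ?_, fun hsc => ?_, fun f hR => ?_⟩
  · have h1 := Vale.Agent.P211.H555.q1 Vale.Agent.P211.H210.core hdim hL hK hlam hR hom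
    refine ⟨h1, fun hp => ?_⟩
    obtain ⟨p, hp⟩ := hp
    rcases h1 with h | h | h
    · exact Or.inl h
    · exact Or.inr h
    · exact (Vale.Agent.P211.H555.not_pos h p hp).elim
  · choose F hF using Vale.Agent.P211.H555.exists_local_frame
      (Vale.Agent.P211.isLC_of hL) hdim
    exact Vale.Agent.P211.H555.orientable_of_frames hdim hF
  · exact Vale.Agent.P211.H555.fun_case hdim hL hK hR
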