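import Vale.Agent.P211.H210.CoreProof
import Vale.Agent.P211.H210.Close
import Vale.Agent.P211.H210.Pos

open scoped Manifold ContDiff
open Bundle Vale.Agent.P211.St Vale.Agent.P211.Final

/-- A closed connected oriented four-manifold with `Ric = lam g`, `lam > 0`, `K ≥ 0` which is
half conformally flat for neither orientation is locally symmetric with the curvature tensor of
`S² × S²`; with `K > 0` it is always half conformally flat for one of the two orientations. -/
theorem Vale.Agent.Results.P211.YangReduction.result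
    {E : Type} [NormedAddCommGroup E] [NormedSpace ℝ E] [FiniteDimensional ℝ E]
    (hdim : Module.finrank ℝ E = 4)
    {M : Type} [TopologicalSpace M] [T2Space M] [ChartedSpace E M] [Mfd E M] [CompactSpace M]
    [ConnectedSpace M] [Metric E M]
    [IsContMDiffRiemannianBundle 𝓘(ℝ, E) ∞ E fun p : M => TangentSpace 𝓘(ℝ, E) p]
    (cov : Conn E M) (hcov : IsLeviCivita cov) (lam : ℝ) (hlam : 0 < lam)
    (hE : IsEinstein cov lam) (hK : SecNonneg cov)
    (om : (p : M) → TangentSpace 𝓘(ℝ, E) p [⋀^Fin 4]→ₗ[ℝ] ℝ) (hom : IsOrientation om) :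
    ((¬ HalfFlat cov lam om 1 ∧ ¬ HalfFlat cov lam om (-1)) → LocallyS2S2 cov lam) ∧
    ((∀ (p : M) (X Y : Fld E M), Smooth X → Smooth Y → LinearIndependent ℝ ![X p, Y p] →
        0 < Riem cov X Y Y X p) →
      HalfFlat cov lam om 1 ∨ HalfFlat cov lam om (-1)) := by
  have h := Vale.Agent.P211.H210.target_of_core Vale.Agent.P211.H210.core hdim cov hcov lam hlam
    hE hK om hom
  refine ⟨fun hn => ?_, fun hp => ?_⟩
  · rcases h with h | h | h
    · exact absurd h hn.1
    · exact absurd h hn.2
    · exact h
  · rcases h with h | h | h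
    · exact Or.inl h
    · exact Or.inr h
    · exact (Vale.Agent.P211.Pos210.not_pos_of_S2S2 h hp).elim
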